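import Mathlib

open Finset

namespace Vale.Agent.Lib.P052

variable {V : Type*} [NormedAddCommGroup V] [InnerProductSpace ℝ V]

/-- Diagonal dominance criterion: points with pairwise distances at most `D` such that for every
`i` the total defect `∑_j (D² - |p_i p_j|²)` (including the term `j = i`, equal to `D²`) is less
than `2 D²` are affinely independent. -/
lemma affineIndependent_of_dominant {ι : Type*} [Fintype ι] (p : ι → V) (D : ℝ)
    (hle : ∀ i j, dist (p i) (p j) ≤ D)
    (hdom : ∀ i, ∑ j, (D ^ 2 - dist (p i) (p j) ^ 2) < 2 * D ^ 2) :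
    AffineIndependent ℝ p := by
  rw [affineIndependent_iff]
  intro s w hw0 hw1 e he
  set g : ι → ι → ℝ := fun i j => D ^ 2 - dist (p i) (p j) ^ 2 with hg
  have hg0 : ∀ i j, 0 ≤ g i j := by
    intro i j
    have h1 := hle i j
    have h2 : 0 ≤ dist (p i) (p j) := dist_nonneg
    simp only [hg]
    nlinarith
  have hgs : ∀ i j, g i j = g j i := by
    intro i j; simp only [hg, dist_comm]
  have hgd : ∀ i, g i i = D ^ 2 := by
    intro i; simp [hg]
  -- the quadratic form of squared distances vanishes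
  have h1 : ∑ i ∈ s, ∑ j ∈ s, w i * w j * (dist (p i) (p j) * dist (p i) (p j)) = 0 := by
    have h := EuclideanGeometry.inner_weightedVSub (s₁ := s) (w₁ := w) p hw0 (s₂ := s) (w₂ := w) p hw0
    rw [Finset.weightedVSub_eq_linear_combination s hw0, hw1, inner_zero_left] at h
    linarith
  have h2 : ∑ i ∈ s, ∑ j ∈ s, w i * w j * g i j = 0 := by
    have : ∑ i ∈ s, ∑ j ∈ s, w i * w j * g i j
        = D ^ 2 * ((∑ i ∈ s, w i) * (∑ j ∈ s, w j))
          - ∑ i ∈ s, ∑ j ∈ s, w i * w j * (dist (p i) (p j) * dist (p i) (p j)) := by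
      rw [Finset.sum_mul_sum, Finset.mul_sum, ← Finset.sum_sub_distrib]
      apply Finset.sum_congr rfl
      intro i _
      rw [Finset.mul_sum, ← Finset.sum_sub_distrib]
      apply Finset.sum_congr rfl
      intro j _
      simp only [hg]; ring
    rw [this, h1, hw0]; ring
  -- symmetrisation
  have h3 : ∑ i ∈ s, ∑ j ∈ s, g i j * (w i ^ 2 + w j ^ 2) / 2 = ∑ i ∈ s, w i ^ 2 * ∑ j ∈ s, g i j := by
    have e1 : ∑ i ∈ s, ∑ j ∈ s, g i j * (w i ^ 2 + w j ^ 2) / 2
        = (∑ i ∈ s, ∑ j ∈ s, g i j * w i ^ 2) / 2 + (∑ i ∈ s, ∑ j ∈ s, g i j * w j ^ 2) / 2 := by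
      rw [Finset.sum_div, Finset.sum_div, ← Finset.sum_add_distrib]
      apply Finset.sum_congr rfl
      intro i _
      rw [Finset.sum_div, Finset.sum_div, ← Finset.sum_add_distrib]
      apply Finset.sum_congr rfl
      intro j _
      ring
    have e2 : ∑ i ∈ s, ∑ j ∈ s, g i j * w j ^ 2 = ∑ i ∈ s, ∑ j ∈ s, g i j * w i ^ 2 := by
      rw [Finset.sum_comm]
      apply Finset.sum_congr rfl
      intro i _
      apply Finset.sum_congr rfl
      intro j _
      rw [hgs]
    rw [e1, e2, add_halves]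
    apply Finset.sum_congr rfl
    intro i _
    rw [Finset.mul_sum]
    apply Finset.sum_congr rfl
    intro j _
    ring
  have h4 : ∑ i ∈ s, 2 * D ^ 2 * w i ^ 2 ≤ ∑ i ∈ s, ∑ j ∈ s, g i j * (w i + w j) ^ 2 / 2 := by
    apply Finset.sum_le_sum
    intro i hi
    have : g i i * (w i + w i) ^ 2 / 2 ≤ ∑ j ∈ s, g i j * (w i + w j) ^ 2 / 2 :=
      Finset.single_le_sum (f := fun j => g i j * (w i + w j) ^ 2 / 2)
        (fun j _ => by have := hg0 i j; positivity) hi
    rw [hgd] at this
    nlinarith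
  have h5 : ∑ i ∈ s, ∑ j ∈ s, g i j * (w i + w j) ^ 2 / 2
      = ∑ i ∈ s, ∑ j ∈ s, w i * w j * g i j + ∑ i ∈ s, ∑ j ∈ s, g i j * (w i ^ 2 + w j ^ 2) / 2 := by
    rw [← Finset.sum_add_distrib]
    apply Finset.sum_congr rfl
    intro i _
    rw [← Finset.sum_add_distrib]
    apply Finset.sum_congr rfl
    intro j _
    ring
  rw [h5, h2, h3, zero_add] at h4
  have h6 : ∑ i ∈ s, w i ^ 2 * (2 * D ^ 2 - ∑ j ∈ s, g i j) ≤ 0 := by
    have : ∑ i ∈ s, w i ^ 2 * (2 * D ^ 2 - ∑ j ∈ s, g i j)
        = ∑ i ∈ s, 2 * D ^ 2 * w i ^ 2 - ∑ i ∈ s, w i ^ 2 * ∑ j ∈ s, g i j := by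
      rw [← Finset.sum_sub_distrib]
      apply Finset.sum_congr rfl
      intro i _
      ring
    rw [this]; linarith
  have hpos : ∀ i, 0 < 2 * D ^ 2 - ∑ j ∈ s, g i j := by
    intro i
    have : ∑ j ∈ s, g i j ≤ ∑ j, g i j :=
      Finset.sum_le_sum_of_subset_of_nonneg (Finset.subset_univ s) (fun j _ _ => hg0 i j)
    have := hdom i
    linarith
  have h7 : ∀ i ∈ s, 0 ≤ w i ^ 2 * (2 * D ^ 2 - ∑ j ∈ s, g i j) :=
    fun i _ => mul_nonneg (sq_nonneg _) (hpos i).le
  have h8 := (Finset.sum_eq_zero_iff_of_nonneg h7).1 (le_antisymm h6 (Finset.sum_nonneg h7)) e he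
  rcases mul_eq_zero.1 h8 with h | h
  · exact pow_eq_zero_iff (by norm_num) |>.1 h
  · exact absurd h (hpos e).ne'

/-- Among `finrank + 2` points with pairwise distances at most `D` there is a point having two
different partners at distance less than `D`. -/
lemma exists_cherry [FiniteDimensional ℝ V] (S : Finset V) (D : ℝ) (hD : 0 < D)
    (hle : ∀ x ∈ S, ∀ y ∈ S, dist x y ≤ D) (hcard : Module.finrank ℝ V + 2 ≤ S.card) :
    ∃ b ∈ S, ∃ a ∈ S, ∃ c ∈ S, a ≠ b ∧ c ≠ b ∧ a ≠ c ∧ dist a b < D ∧ dist c b < D := by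
  classical
  by_contra hcon
  have hcon' : ∀ b ∈ S, ∀ a ∈ S, ∀ c ∈ S, a ≠ b → c ≠ b → a ≠ c → dist a b < D → D ≤ dist c b := by
    intro b hb a ha c hc h1 h2 h3 h4
    by_contra h5
    exact hcon ⟨b, hb, a, ha, c, hc, h1, h2, h3, h4, not_le.1 h5⟩
  have hind : AffineIndependent ℝ (fun x : S => (x : V)) := by
    refine affineIndependent_of_dominant (ι := S) (fun x : S => (x : V)) D
      (fun i j => hle i i.2 j j.2) ?_
    intro i
    have hD2 : 0 < D ^ 2 := by positivity
    by_cases h : ∃ a : S, a ≠ i ∧ dist (a : V) i < D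
    · obtain ⟨a, hai, had⟩ := h
      have hz : ∀ j ∈ (Finset.univ : Finset S), j ∉ ({i, a} : Finset S) →
          D ^ 2 - dist (i : V) j ^ 2 = 0 := by
        intro j _ hj
        simp only [Finset.mem_insert, Finset.mem_singleton, not_or] at hj
        have h1 : D ≤ dist (j : V) i :=
          hcon' i i.2 a a.2 j j.2 (fun h => hai (Subtype.ext h)) (fun h => hj.1 (Subtype.ext h))
            (fun h => hj.2 (Subtype.ext h.symm)) had
        have h2 := hle j j.2 i i.2
        have h3 : dist (i : V) j = D := by rw [dist_comm]; exact le_antisymm h2 h1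
        rw [h3]; ring
      rw [← Finset.sum_subset (Finset.subset_univ ({i, a} : Finset S)) hz,
        Finset.sum_pair (Ne.symm hai)]
      have hpos : 0 < dist (i : V) a := by
        rw [dist_pos]; exact fun h => hai (Subtype.ext h.symm)
      simp only [dist_self]
      nlinarith
    · have hz : ∀ j ∈ (Finset.univ : Finset S), j ≠ i → D ^ 2 - dist (i : V) j ^ 2 = 0 := by
        intro j _ hj
        have h1 : D ≤ dist (j : V) i := by
          by_contra h5
          exact h ⟨j, hj, not_le.1 h5⟩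
        have h2 := hle j j.2 i i.2
        have h3 : dist (i : V) j = D := by rw [dist_comm]; exact le_antisymm h2 h1
        rw [h3]; ring
      rw [Finset.sum_eq_single i hz (fun h => absurd (Finset.mem_univ i) h)]
      simp only [dist_self]
      nlinarith
  have h1 := hind.card_le_finrank_succ
  have h2 : Module.finrank ℝ (vectorSpan ℝ (Set.range (fun x : S => (x : V)))) ≤ Module.finrank ℝ V :=
    Submodule.finrank_le _
  rw [Fintype.card_coe] at h1
  omega

/-- `S` is the union of `m` sets of diameter `< D`. -/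
def Cov (D : ℝ) (S : Set V) (m : ℕ) : Prop :=
  ∃ P : Fin m → Set V, S = ⋃ i, P i ∧ ∀ i, Metric.diam (P i) < D

lemma cov_empty (D : ℝ) : Cov D (∅ : Set V) 0 :=
  ⟨fun i => i.elim0, by simp, fun i => i.elim0⟩

lemma cov_union {D : ℝ} {S Q : Set V} {m : ℕ} (h : Cov D S m) (hQ : Metric.diam Q < D) :
    Cov D (Q ∪ S) (m + 1) := by
  obtain ⟨P, hS, hP⟩ := h
  refine ⟨Fin.cons Q P, ?_, ?_⟩
  · ext x
    simp only [Set.mem_union, Set.mem_iUnion, hS]
    constructor
    · rintro (h | ⟨i, hi⟩)
      · exact ⟨0, by simpa using h⟩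
      · exact ⟨i.succ, by simpa using hi⟩
    · rintro ⟨i, hi⟩
      refine Fin.cases ?_ ?_ i hi
      · intro h; exact Or.inl (by simpa using h)
      · intro j h; exact Or.inr ⟨j, by simpa using h⟩
  · intro i
    refine Fin.cases ?_ ?_ i
    · simpa using hQ
    · intro j; simpa using hP j

lemma cov_succ {D : ℝ} (hD : 0 < D) {S : Set V} {m : ℕ} (h : Cov D S m) : Cov D S (m + 1) := by
  have := cov_union h (Q := ∅) (by simpa using hD)
  simpa using this

lemma cov_mono {D : ℝ} (hD : 0 < D) {S : Set V} {m m' : ℕ} (h : Cov D S m) (hm : m ≤ m') :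
    Cov D S m' := by
  induction m', hm using Nat.le_induction with
  | base => exact h
  | succ n _ ih => exact cov_succ hD ih

lemma cov_card {D : ℝ} (hD : 0 < D) (Y : Finset V) : Cov D (↑Y : Set V) Y.card := by
  classical
  induction Y using Finset.induction_on with
  | empty => simpa using cov_empty D
  | insert a s ha ih =>
    rw [Finset.card_insert_of_notMem ha, Finset.coe_insert, Set.insert_eq]
    exact cov_union ih (by simpa using hD)

lemma cov_pair [DecidableEq V] {D : ℝ} {Y : Finset V} {a b : V} (ha : a ∈ Y) (hb : b ∈ Y.erase a)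
    (hab : dist a b < D) {m : ℕ} (h : Cov D (↑((Y.erase a).erase b) : Set V) m) :
    Cov D (↑Y : Set V) (m + 1) := by
  have := cov_union h (Q := {a, b}) (by rw [Metric.diam_pair]; exact hab)
  convert this using 1
  have hb' := Finset.mem_of_mem_erase hb
  ext x
  simp only [Finset.mem_coe, Set.mem_union, Set.mem_insert_iff, Set.mem_singleton_iff,
    Finset.mem_erase]
  constructor
  · intro hx
    by_cases h1 : x = a
    · exact Or.inl (Or.inl h1)
    · by_cases h2 : x = b
      · exact Or.inl (Or.inr h2)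
      · exact Or.inr ⟨h2, h1, hx⟩
  · rintro ((h | h) | h)
    · rw [h]; exact ha
    · rw [h]; exact hb'
    · exact h.2.2

lemma cov_triple [DecidableEq V] {D : ℝ} {Y : Finset V} {a b c : V} (ha : a ∈ Y)
    (hb : b ∈ Y.erase a) (hc : c ∈ (Y.erase a).erase b)
    (hab : dist a b < D) (hac : dist a c < D) (hbc : dist b c < D) {m : ℕ}
    (h : Cov D (↑(((Y.erase a).erase b).erase c) : Set V) m) :
    Cov D (↑Y : Set V) (m + 1) := by
  have := cov_union h (Q := {a, b, c})
    (by rw [Metric.diam_triple]; exact max_lt (max_lt hab hac) hbc)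
  convert this using 1
  have hb' := Finset.mem_of_mem_erase hb
  have hc' := Finset.mem_of_mem_erase (Finset.mem_of_mem_erase hc)
  ext x
  simp only [Finset.mem_coe, Set.mem_union, Set.mem_insert_iff, Set.mem_singleton_iff,
    Finset.mem_erase]
  constructor
  · intro hx
    by_cases h1 : x = a
    · exact Or.inl (Or.inl h1)
    · by_cases h2 : x = b
      · exact Or.inl (Or.inr (Or.inl h2))
      · by_cases h3 : x = c
        · exact Or.inl (Or.inr (Or.inr h3))
        · exact Or.inr ⟨h3, h2, h1, hx⟩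
  · rintro ((h | h | h) | h)
    · rw [h]; exact ha
    · rw [h]; exact hb'
    · rw [h]; exact hc'
    · exact h.2.2.2

/-- three disjoint short pairs -/
lemma close3 [DecidableEq V] {D : ℝ} (hD : 0 < D) {Y : Finset V} {a1 b1 a2 b2 a3 b3 : V}
    (hmem : ∀ x ∈ [a1, b1, a2, b2, a3, b3], x ∈ Y) (hnd : [a1, b1, a2, b2, a3, b3].Nodup)
    (h1 : dist a1 b1 < D) (h2 : dist a2 b2 < D) (h3 : dist a3 b3 < D) :
    Cov D (↑Y : Set V) (Y.card - 3) := by
  simp only [List.mem_cons, List.not_mem_nil, or_false, forall_eq_or_imp, forall_eq] at hmem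
  simp only [List.nodup_cons, List.mem_cons, List.not_mem_nil, or_false, not_or, List.nodup_nil,
    and_true, not_false_eq_true] at hnd
  obtain ⟨m1, m2, m3, m4, m5, m6⟩ := hmem
  have e1 : a1 ∈ Y := m1
  have e2 : b1 ∈ Y.erase a1 := by simp [Finset.mem_erase]; grind
  have e3 : a2 ∈ (Y.erase a1).erase b1 := by simp [Finset.mem_erase]; grind
  have e4 : b2 ∈ ((Y.erase a1).erase b1).erase a2 := by simp [Finset.mem_erase]; grind
  have e5 : a3 ∈ (((Y.erase a1).erase b1).erase a2).erase b2 := by simp [Finset.mem_erase]; grind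
  have e6 : b3 ∈ ((((Y.erase a1).erase b1).erase a2).erase b2).erase a3 := by
    simp [Finset.mem_erase]; grind
  have c1 := Finset.card_erase_add_one e1
  have c2 := Finset.card_erase_add_one e2
  have c3 := Finset.card_erase_add_one e3
  have c4 := Finset.card_erase_add_one e4
  have c5 := Finset.card_erase_add_one e5
  have c6 := Finset.card_erase_add_one e6
  have := cov_pair e1 e2 h1 (cov_pair e3 e4 h2 (cov_pair e5 e6 h3 (cov_card hD _)))
  exact cov_mono hD this (by omega)

/-- a short triangle and a disjoint short pair -/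
lemma closeTri [DecidableEq V] {D : ℝ} (hD : 0 < D) {Y : Finset V} {a b c e f : V}
    (hmem : ∀ x ∈ [a, b, c, e, f], x ∈ Y) (hnd : [a, b, c, e, f].Nodup)
    (h1 : dist a b < D) (h2 : dist a c < D) (h3 : dist b c < D) (h4 : dist e f < D) :
    Cov D (↑Y : Set V) (Y.card - 3) := by
  simp only [List.mem_cons, List.not_mem_nil, or_false, forall_eq_or_imp, forall_eq] at hmem
  simp only [List.nodup_cons, List.mem_cons, List.not_mem_nil, or_false, not_or, List.nodup_nil,
    and_true, not_false_eq_true] at hnd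
  obtain ⟨m1, m2, m3, m4, m5⟩ := hmem
  have e1 : a ∈ Y := m1
  have e2 : b ∈ Y.erase a := by simp [Finset.mem_erase]; grind
  have e3 : c ∈ (Y.erase a).erase b := by simp [Finset.mem_erase]; grind
  have e4 : e ∈ ((Y.erase a).erase b).erase c := by simp [Finset.mem_erase]; grind
  have e5 : f ∈ (((Y.erase a).erase b).erase c).erase e := by simp [Finset.mem_erase]; grind
  have c1 := Finset.card_erase_add_one e1
  have c2 := Finset.card_erase_add_one e2
  have c3 := Finset.card_erase_add_one e3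
  have c4 := Finset.card_erase_add_one e4
  have c5 := Finset.card_erase_add_one e5
  have := cov_triple e1 e2 e3 h1 h2 h3 (cov_pair e4 e5 h4 (cov_card hD _))
  exact cov_mono hD this (by omega)

/-- cherry avoiding two given points -/
lemma cherry2 [FiniteDimensional ℝ V] [DecidableEq V] (Y : Finset V) (D : ℝ) (hD : 0 < D)
    (hle : ∀ x ∈ Y, ∀ y ∈ Y, dist x y ≤ D) (hcard : Module.finrank ℝ V + 4 ≤ Y.card) (p q : V) :
    ∃ b ∈ Y, ∃ a ∈ Y, ∃ c ∈ Y, b ≠ p ∧ b ≠ q ∧ a ≠ p ∧ a ≠ q ∧ c ≠ p ∧ c ≠ q ∧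
      a ≠ b ∧ c ≠ b ∧ a ≠ c ∧ dist a b < D ∧ dist c b < D := by
  have hc : Module.finrank ℝ V + 2 ≤ ((Y.erase p).erase q).card := by
    have h1 := Finset.pred_card_le_card_erase (s := Y) (a := p)
    have h2 := Finset.pred_card_le_card_erase (s := Y.erase p) (a := q)
    omega
  obtain ⟨b, hb, a, ha, c, hc', h⟩ := exists_cherry ((Y.erase p).erase q) D hD
    (fun x hx y hy => hle x (Finset.mem_of_mem_erase (Finset.mem_of_mem_erase hx)) y
      (Finset.mem_of_mem_erase (Finset.mem_of_mem_erase hy))) hc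
  simp only [Finset.mem_erase] at hb ha hc'
  exact ⟨b, hb.2.2, a, ha.2.2, c, hc'.2.2, hb.2.1, hb.1, ha.2.1, ha.1, hc'.2.1, hc'.1, h⟩

lemma cov_four [FiniteDimensional ℝ V] [DecidableEq V] (Y : Finset V) (D : ℝ) (hD : 0 < D)
    (hle : ∀ x ∈ Y, ∀ y ∈ Y, dist x y ≤ D) (hcard : Module.finrank ℝ V + 4 ≤ Y.card) :
    Cov D (↑Y : Set V) (Y.card - 3) := by
  have ch := cherry2 Y D hD hle hcard
  -- Step A : an edge a b
  obtain ⟨b, hb, a, ha, -, -, -, -, -, -, -, -, hab, -, -, dab, -⟩ := ch 0 0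
  -- Step B : cherry u - v - w avoiding a, b
  obtain ⟨v, hv, u, hu, w, hw, hva, hvb, hua, hub, hwa, hwb, huv, hwv, huw, duv, dwv⟩ := ch a b
  by_cases duw : dist u w < D
  · exact closeTri hD (a := u) (b := v) (c := w) (e := a) (f := b)
      (by simp; grind) (by simp; grind) duv duw (by rw [dist_comm]; exact dwv) dab
  -- Step C : cherry x - y - z avoiding v, a
  obtain ⟨y, hy, x, hx, z, hz, hyv, hya, hxv, hxa, hzv, hza, hxy, hzy, hxz, dxy, dzy⟩ := ch v a
  -- an edge {s, t} avoiding a, b, v finishes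
  have finish : ∀ s ∈ Y, ∀ t ∈ Y, s ≠ t → dist s t < D → s ≠ a → s ≠ b → s ≠ v → t ≠ a → t ≠ b →
      t ≠ v → Cov D (↑Y : Set V) (Y.card - 3) := by
    intro s hs t ht hst dst hsa hsb hsv hta htb htv
    by_cases h1 : s = u ∨ t = u
    · -- then w is not in {s, t}
      have hsw : s ≠ w := by
        rintro rfl
        rcases h1 with h | h
        · exact huw h.symm
        · apply duw; rw [← h, dist_comm]; exact dst
      have htw : t ≠ w := by
        rintro rfl
        rcases h1 with h | h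
        · apply duw; rw [← h]; exact dst
        · exact huw h.symm
      exact close3 hD (a1 := a) (b1 := b) (a2 := w) (b2 := v) (a3 := s) (b3 := t)
        (by simp; grind) (by simp; grind) dab dwv dst
    · rw [not_or] at h1
      exact close3 hD (a1 := a) (b1 := b) (a2 := u) (b2 := v) (a3 := s) (b3 := t)
        (by simp; grind) (by simp; grind) dab duv dst
  by_cases hyb : y = b
  swap
  · -- y ≠ b : one of the two edges avoids b
    by_cases hxb : x = b
    · -- use edge z y
      have hzb : z ≠ b := by rintro rfl; exact hxz hxb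
      exact finish z hz y hy hzy dzy hza hzb hzv hya hyb hyv
    · exact finish x hx y hy hxy dxy hxa hxb hxv hya hyb hyv
  subst hyb
  -- Step D : cherry x' - y' - z' avoiding v, y(=b)
  obtain ⟨y', hy', x', hx', z', hz', hyv', hyb', hxv', hxb', hzv', hzb', hxy', hzy', hxz', dxy', dzy'⟩ :=
    ch v y
  by_cases hya' : y' = a
  swap
  · by_cases hxa' : x' = a
    · have hza' : z' ≠ a := by rintro rfl; exact hxz' hxa'
      exact finish z' hz' y' hy' hzy' dzy' hza' hzb' hzv' hya' hyb' hyv'
    · exact finish x' hx' y' hy' hxy' dxy' hxa' hxb' hxv' hya' hyb' hyv'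
  subst hya'
  -- now y ~ x, z ; y' ~ x', z' ; y' ~ y ; v ~ u, w
  -- common neighbour gives a triangle
  have tri : ∀ t ∈ Y, t ≠ y → t ≠ y' → t ≠ v → dist t y < D → dist t y' < D →
      Cov D (↑Y : Set V) (Y.card - 3) := by
    intro t ht hty hty' htv d1 d2
    by_cases htu : t = u
    · exact closeTri hD (a := y') (b := y) (c := t) (e := w) (f := v)
        (by simp; grind) (by simp; grind) dab (by rw [dist_comm]; exact d2)
        (by rw [dist_comm]; exact d1) dwv
    · exact closeTri hD (a := y') (b := y) (c := t) (e := u) (f := v)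
        (by simp; grind) (by simp; grind) dab (by rw [dist_comm]; exact d2)
        (by rw [dist_comm]; exact d1) duv
  by_cases c1 : x = x'
  · exact tri x hx hxy hxa hxv dxy (by rw [c1]; exact dxy')
  by_cases c2 : x = z'
  · exact tri x hx hxy hxa hxv dxy (by rw [c2]; exact dzy')
  by_cases c3 : z = x'
  · exact tri z hz hzy hza hzv dzy (by rw [c3]; exact dxy')
  by_cases c4 : z = z'
  · exact tri z hz hzy hza hzv dzy (by rw [c4]; exact dzy')
  -- choose q ∈ {x, z}, p ∈ {x', z'} different from u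
  obtain ⟨q, hq, hqy, hqy', hqv, hqu, dq, hq1, hq2⟩ : ∃ q ∈ Y, q ≠ y ∧ q ≠ y' ∧ q ≠ v ∧ q ≠ u ∧
      dist q y < D ∧ q ≠ x' ∧ q ≠ z' := by
    by_cases h : x = u
    · exact ⟨z, hz, hzy, hza, hzv, by rintro rfl; exact hxz h, dzy, c3, c4⟩
    · exact ⟨x, hx, hxy, hxa, hxv, h, dxy, c1, c2⟩
  obtain ⟨p, hp, hpy, hpy', hpv, hpu, dp, hpq⟩ : ∃ p ∈ Y, p ≠ y ∧ p ≠ y' ∧ p ≠ v ∧ p ≠ u ∧
      dist p y' < D ∧ p ≠ q := by
    by_cases h : x' = u
    · exact ⟨z', hz', hzb', hzy', hzv', by rintro rfl; exact hxz' h, dzy', hq2.symm⟩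
    · exact ⟨x', hx', hxb', hxy', hxv', h, dxy', hq1.symm⟩
  exact close3 hD (a1 := p) (b1 := y') (a2 := q) (b2 := y) (a3 := u) (b3 := v)
    (by simp; grind) (by simp; grind) dp dq duv

/-- two disjoint short pairs -/
lemma close2 [DecidableEq V] {D : ℝ} (hD : 0 < D) {Y : Finset V} {a1 b1 a2 b2 : V}
    (hmem : ∀ x ∈ [a1, b1, a2, b2], x ∈ Y) (hnd : [a1, b1, a2, b2].Nodup)
    (h1 : dist a1 b1 < D) (h2 : dist a2 b2 < D) :
    Cov D (↑Y : Set V) (Y.card - 2) := by
  simp only [List.mem_cons, List.not_mem_nil, or_false, forall_eq_or_imp, forall_eq] at hmem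
  simp only [List.nodup_cons, List.mem_cons, List.not_mem_nil, or_false, not_or, List.nodup_nil,
    and_true, not_false_eq_true] at hnd
  obtain ⟨m1, m2, m3, m4⟩ := hmem
  have e1 : a1 ∈ Y := m1
  have e2 : b1 ∈ Y.erase a1 := by simp [Finset.mem_erase]; grind
  have e3 : a2 ∈ (Y.erase a1).erase b1 := by simp [Finset.mem_erase]; grind
  have e4 : b2 ∈ ((Y.erase a1).erase b1).erase a2 := by simp [Finset.mem_erase]; grind
  have c1 := Finset.card_erase_add_one e1
  have c2 := Finset.card_erase_add_one e2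
  have c3 := Finset.card_erase_add_one e3
  have c4 := Finset.card_erase_add_one e4
  have := cov_pair e1 e2 h1 (cov_pair e3 e4 h2 (cov_card hD _))
  exact cov_mono hD this (by omega)

lemma cov_two [FiniteDimensional ℝ V] [DecidableEq V] (Y : Finset V) (D : ℝ) (hD : 0 < D)
    (hle : ∀ x ∈ Y, ∀ y ∈ Y, dist x y ≤ D) (hcard : Module.finrank ℝ V + 2 ≤ Y.card) :
    Cov D (↑Y : Set V) (Y.card - 1) := by
  obtain ⟨b, hb, a, ha, -, -, hab, -, -, dab, -⟩ := exists_cherry Y D hD hle hcard
  have e2 : b ∈ Y.erase a := by simp [Finset.mem_erase]; grind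
  have c1 := Finset.card_erase_add_one ha
  have c2 := Finset.card_erase_add_one e2
  have := cov_pair ha e2 dab (cov_card hD _)
  exact cov_mono hD this (by omega)

lemma cov_three [FiniteDimensional ℝ V] [DecidableEq V] (Y : Finset V) (D : ℝ) (hD : 0 < D)
    (hle : ∀ x ∈ Y, ∀ y ∈ Y, dist x y ≤ D) (hcard : Module.finrank ℝ V + 3 ≤ Y.card) :
    Cov D (↑Y : Set V) (Y.card - 2) := by
  obtain ⟨b, hb, a, ha, c, hc, hab, hcb, hac, dab, dcb⟩ :=
    exists_cherry Y D hD hle (by omega)
  have hc1 : Module.finrank ℝ V + 2 ≤ (Y.erase b).card := by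
    have h1 := Finset.pred_card_le_card_erase (s := Y) (a := b)
    omega
  obtain ⟨v, hv, u, hu, w, hw, huv, hwv, huw, duv, dwv⟩ := exists_cherry (Y.erase b) D hD
    (fun x hx y hy => hle x (Finset.mem_of_mem_erase hx) y (Finset.mem_of_mem_erase hy)) hc1
  simp only [Finset.mem_erase] at hv hu hw
  by_cases h1 : a = u ∨ a = v
  · by_cases h2 : a = v ∨ a = w
    · have hav : a = v := by grind
      by_cases h3 : c = u
      · exact close2 hD (a1 := c) (b1 := b) (a2 := w) (b2 := v) (by simp; grind) (by simp; grind)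
          dcb dwv
      · exact close2 hD (a1 := c) (b1 := b) (a2 := u) (b2 := v) (by simp; grind) (by simp; grind)
          dcb duv
    · exact close2 hD (a1 := a) (b1 := b) (a2 := w) (b2 := v) (by simp; grind) (by simp; grind)
        dab dwv
  · exact close2 hD (a1 := a) (b1 := b) (a2 := u) (b2 := v) (by simp; grind) (by simp; grind)
      dab duv

/-- Borsuk's conjecture for at most `d + 4` points. -/
theorem borsuk_few_points [FiniteDimensional ℝ V] (Y : Set V) (hfin : Y.Finite)
    (hcard : Y.ncard ≤ Module.finrank ℝ V + 4) (hpos : 0 < Metric.diam Y) :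
    ∃ P : Fin (Module.finrank ℝ V + 1) → Set V,
      Y = ⋃ i, P i ∧ ∀ i, Metric.diam (P i) < Metric.diam Y := by
  classical
  set Y' := hfin.toFinset with hY'
  have hco : (↑Y' : Set V) = Y := hfin.coe_toFinset
  have hc : Y'.card ≤ Module.finrank ℝ V + 4 := by
    rw [← Set.ncard_eq_toFinset_card Y hfin]; exact hcard
  have hle : ∀ x ∈ Y', ∀ y ∈ Y', dist x y ≤ Metric.diam Y := by
    intro x hx y hy
    exact Metric.dist_le_diam_of_mem hfin.isBounded (by simpa [hY'] using hx) (by simpa [hY'] using hy)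
  have key : Cov (Metric.diam Y) (↑Y' : Set V) (Module.finrank ℝ V + 1) := by
    rcases le_or_gt (Module.finrank ℝ V + 4) Y'.card with h4 | h4
    · exact cov_mono hpos (cov_four Y' _ hpos hle h4) (by omega)
    rcases le_or_gt (Module.finrank ℝ V + 3) Y'.card with h3 | h3
    · exact cov_mono hpos (cov_three Y' _ hpos hle h3) (by omega)
    rcases le_or_gt (Module.finrank ℝ V + 2) Y'.card with h2 | h2
    · exact cov_mono hpos (cov_two Y' _ hpos hle h2) (by omega)
    · exact cov_mono hpos (cov_card hpos Y') (by omega)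
  rw [hco] at key
  exact key

end Vale.Agent.Lib.P052
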