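import Vale.Agent.Lib.P052.Dim63Defs

namespace Vale.Agent.Lib.P052.Dim63

theorem clq_0 : cTake (noCl 5) 4 (verts.drop 0) = true := by decide +kernel

theorem clq_1 : cTake (noCl 5) 5 (verts.drop 4) = true := by decide +kernel

theorem clq_2 : cTake (noCl 5) 6 (verts.drop 9) = true := by decide +kernel

theorem clq_3 : cTake (noCl 5) 5 (verts.drop 15) = true := by decide +kernel

theorem clq_4 : cTake (noCl 5) 5 (verts.drop 20) = true := by decide +kernel

theorem clq_5 : cTake (noCl 5) 6 (verts.drop 25) = true := by decide +kernel

theorem clq_6 : cTake (noCl 5) 7 (verts.drop 31) = true := by decide +kernel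

theorem clq_7 : cTake (noCl 5) 7 (verts.drop 38) = true := by decide +kernel

theorem clq_8 : cTake (noCl 5) 8 (verts.drop 45) = true := by decide +kernel

theorem clq_9 : cTake (noCl 5) 8 (verts.drop 53) = true := by decide +kernel

theorem clq_10 : cTake (noCl 5) 10 (verts.drop 61) = true := by decide +kernel

theorem clq_11 : cTake (noCl 5) 11 (verts.drop 71) = true := by decide +kernel

theorem clq_12 : cTake (noCl 5) 14 (verts.drop 82) = true := by decide +kernel

theorem clq_13 : cTake (noCl 5) 17 (verts.drop 96) = true := by decide +kernel

theorem clq_14 : cTake (noCl 5) 19 (verts.drop 113) = true := by decide +kernel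

theorem clq_15 : cTake (noCl 5) 33 (verts.drop 132) = true := by decide +kernel

theorem clq_16 : cTake (noCl 5) 156 (verts.drop 165) = true := by decide +kernel

theorem verts_drop : verts.drop 321 = [] := by decide +kernel

end Vale.Agent.Lib.P052.Dim63
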