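import Vale.Agent.Lib.P052.Dim63Data

/-!
Boolean checkers for the 63-dimensional point configuration.  They are written with explicit
recursors so that the kernel evaluates them quickly.
-/

namespace Vale.Agent.Lib.P052.Dim63

/-- Bit `u` of `m`. -/
noncomputable def bitT (m u : ℕ) : Bool := Nat.beq (Nat.land (Nat.shiftRight m u) 1) 1

/-- Sum of products of the first `n` base-16 digits. -/
noncomputable def dotN (n : ℕ) : ℕ → ℕ → ℕ :=
  Nat.rec (fun _ _ => 0)
    (fun _ ih p q =>
      Nat.add (Nat.mul (Nat.mod p 16) (Nat.mod q 16)) (ih (Nat.div p 16) (Nat.div q 16))) n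

/-- Sum of the first `n` base-16 digits. -/
noncomputable def sumN (n : ℕ) : ℕ → ℕ :=
  Nat.rec (fun _ => 0) (fun _ ih p => Nat.add (Nat.mod p 16) (ih (Nat.div p 16))) n

/-- The test for one pair of lattice points: squared distance 96 if the bit is set, else 128. -/
noncomputable def geoOne (p m : ℕ) (e : ℕ × ℕ × ℕ) : Bool :=
  Nat.beq (Nat.add (Nat.mul 2 (dotN 63 p e.2.1)) (Bool.rec 128 96 (bitT m e.1)))
    (Nat.add (dotN 63 p p) (dotN 63 e.2.1 e.2.1))

/-- One row of the distance table. -/
noncomputable def geoRow (p m : ℕ) (L : List (ℕ × ℕ × ℕ)) : Bool :=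
  List.rec true (fun e _ ih => Bool.rec false ih (geoOne p m e)) L

/-- The first `k` rows of the distance table. -/
noncomputable def geoTake (k : ℕ) : List (ℕ × ℕ × ℕ) → Bool :=
  Nat.rec (fun _ => true)
    (fun _ ih L => List.rec true (fun e T _ => Bool.rec false (ih T) (geoRow e.2.1 e.2.2 T)) L) k

/-- The test for the extra point (direction `t`, mask `zm`) against one lattice point. -/
noncomputable def zOne (t zm : ℕ) (e : ℕ × ℕ × ℕ) : Bool :=
  Bool.rec false
    (Bool.rec false (Nat.blt e.1 320)
      (Nat.beq (Nat.add (dotN 63 e.2.1 e.2.1) 948) (Nat.mul 8 (sumN 63 e.2.1))))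
    (Nat.beq (Nat.add (dotN 63 t e.2.1) 1012)
      (Nat.add (Nat.mul 4 (Nat.add (sumN 63 t) (sumN 63 e.2.1))) (Bool.rec 0 16 (bitT zm e.1))))

/-- The tests for the extra point against a list of lattice points. -/
noncomputable def zRow (t zm : ℕ) (L : List (ℕ × ℕ × ℕ)) : Bool :=
  List.rec true (fun e _ ih => Bool.rec false ih (zOne t zm e)) L

/-- Keep the entries whose label has its bit set in `m`. -/
noncomputable def filt (m : ℕ) (L : List (ℕ × ℕ × ℕ)) : List (ℕ × ℕ × ℕ) :=
  List.rec [] (fun u _ ih => Bool.rec ih (u :: ih) (bitT m u.1)) L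

/-- One level of the clique search. -/
noncomputable def cstep (f : List (ℕ × ℕ × ℕ) → Bool) (L : List (ℕ × ℕ × ℕ)) : Bool :=
  List.rec true (fun e T ih => Bool.rec false ih (f (filt e.2.2 T))) L

/-- `noCl k L` is true only if `L` has no sublist of length `k` in which every earlier entry has
the bit of every later entry set. -/
noncomputable def noCl (k : ℕ) : List (ℕ × ℕ × ℕ) → Bool :=
  Nat.rec (fun _ => false) (fun _ f => cstep f) k

/-- The first `k` rows of one level of the clique search. -/
noncomputable def cTake (f : List (ℕ × ℕ × ℕ) → Bool) (k : ℕ) : List (ℕ × ℕ × ℕ) → Bool :=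
  Nat.rec (fun _ => true)
    (fun _ ih L => List.rec true (fun e T _ => Bool.rec false (ih T) (f (filt e.2.2 T))) L) k

/-- All 321 entries: the extra point first, then the lattice points. -/
def verts : List (ℕ × ℕ × ℕ) := (320, tP, zMask) :: uverts

end Vale.Agent.Lib.P052.Dim63
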