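import Vale.Agent.Lib.P052.Dim63Defs

namespace Vale.Agent.Lib.P052.Dim63

theorem geo_0 : geoTake 32 (uverts.drop 0) = true := by decide +kernel

theorem geo_1 : geoTake 32 (uverts.drop 32) = true := by decide +kernel

theorem geo_2 : geoTake 32 (uverts.drop 64) = true := by decide +kernel

theorem geo_3 : geoTake 32 (uverts.drop 96) = true := by decide +kernel

theorem geo_4 : geoTake 32 (uverts.drop 128) = true := by decide +kernel

theorem geo_5 : geoTake 32 (uverts.drop 160) = true := by decide +kernel

theorem geo_6 : geoTake 32 (uverts.drop 192) = true := by decide +kernel

theorem geo_7 : geoTake 32 (uverts.drop 224) = true := by decide +kernel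

theorem geo_8 : geoTake 32 (uverts.drop 256) = true := by decide +kernel

theorem geo_9 : geoTake 32 (uverts.drop 288) = true := by decide +kernel

theorem zRow_uverts : zRow tP zMask uverts = true := by decide +kernel

theorem tP_norm : dotN 63 tP tP + 956 = 8 * sumN 63 tP := by decide +kernel

theorem uverts_drop : uverts.drop 320 = [] := by decide +kernel

theorem verts_length : verts.length = 321 := by decide +kernel

end Vale.Agent.Lib.P052.Dim63
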