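import Vale.Agent.Lib.P052.Dim63Sound
import Vale.Agent.Lib.P052.Dim63Geo
import Vale.Agent.Lib.P052.Dim63Clique

/-!
A set of 321 points of `ℝ^63` that cannot be split into 64 parts of smaller diameter.
-/

namespace Vale.Agent.Lib.P052.Dim63

/-- The scaling factor of the extra point: the positive root of `13 x ^ 2 + 2 x - 17`. -/
noncomputable def lam : ℝ := (Real.sqrt 222 - 1) / 13

theorem lam_eq : 13 * lam ^ 2 + 2 * lam - 17 = 0 := by
  have h : Real.sqrt 222 ^ 2 = 222 := Real.sq_sqrt (by norm_num)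
  unfold lam
  field_simp
  nlinarith [h]

theorem lam_pos : 0 < lam := by
  have h : (1 : ℝ) < Real.sqrt 222 := by
    rw [show (1 : ℝ) = Real.sqrt 1 by simp]
    exact Real.sqrt_lt_sqrt (by norm_num) (by norm_num)
  unfold lam
  apply div_pos <;> linarith

/-- The lattice point with packed coordinates `p`. -/
noncomputable def ptR (p : ℕ) : EuclideanSpace ℝ (Fin 63) :=
  WithLp.toLp 2 fun k : Fin 63 => (dg p k : ℝ)

/-- The extra point, with packed direction `t`. -/
noncomputable def zR (t : ℕ) : EuclideanSpace ℝ (Fin 63) :=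
  WithLp.toLp 2 fun k : Fin 63 => 4 + lam * ((dg t k : ℝ) - 4)

/-- The point of an entry: label 320 marks the extra point. -/
noncomputable def toE (e : ℕ × ℕ × ℕ) : EuclideanSpace ℝ (Fin 63) :=
  if e.1 = 320 then zR e.2.1 else ptR e.2.1

theorem dotR (p q : ℕ) : ((dotN 63 p q : ℕ) : ℝ) = ∑ k : Fin 63, (dg p k : ℝ) * (dg q k : ℝ) := by
  rw [dotN_eq, Finset.sum_range]
  push_cast
  rfl

theorem sumR (p : ℕ) : ((sumN 63 p : ℕ) : ℝ) = ∑ k : Fin 63, (dg p k : ℝ) := by
  rw [sumN_eq, Finset.sum_range]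
  push_cast
  rfl

theorem dist_ptR (p q : ℕ) : dist (ptR p) (ptR q) ^ 2 =
    (dotN 63 p p : ℝ) + (dotN 63 q q : ℝ) - 2 * (dotN 63 p q : ℝ) := by
  rw [EuclideanSpace.dist_sq_eq, dotR, dotR, dotR, Finset.mul_sum, ← Finset.sum_add_distrib,
    ← Finset.sum_sub_distrib]
  refine Finset.sum_congr rfl fun k _ => ?_
  simp only [ptR, Real.dist_eq, sq_abs]
  ring

theorem dist_zR (t q : ℕ) : dist (zR t) (ptR q) ^ 2 =
    lam ^ 2 * ((dotN 63 t t : ℝ) - 8 * (sumN 63 t : ℝ) + 1008)
      - 2 * lam * ((dotN 63 t q : ℝ) - 4 * ((sumN 63 t : ℝ) + (sumN 63 q : ℝ)) + 1008)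
      + ((dotN 63 q q : ℝ) - 8 * (sumN 63 q : ℝ) + 1008) := by
  have h1008 : (1008 : ℝ) = ∑ _k : Fin 63, (16 : ℝ) := by simp; norm_num
  rw [EuclideanSpace.dist_sq_eq, dotR, dotR, dotR, sumR, sumR, h1008]
  simp only [Finset.mul_sum, ← Finset.sum_add_distrib, ← Finset.sum_sub_distrib]
  refine Finset.sum_congr rfl fun k _ => ?_
  simp only [ptR, zR, Real.dist_eq, sq_abs]
  ring

/-- What is proved about an earlier entry `a` and a later entry `b` of the list. -/
def Rel (a b : ℕ × ℕ × ℕ) : Prop :=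
  dist (toE a) (toE b) ^ 2 ≤ 128 ∧ (bitT a.2.2 b.1 = false → dist (toE a) (toE b) ^ 2 = 128)

theorem geoOne_dist {p m : ℕ} {e : ℕ × ℕ × ℕ} (h : geoOne p m e = true) :
    dist (ptR p) (ptR e.2.1) ^ 2 ≤ 128 ∧
      (bitT m e.1 = false → dist (ptR p) (ptR e.2.1) ^ 2 = 128) := by
  have h1 : 2 * dotN 63 p e.2.1 + (Bool.rec (motive := fun _ => ℕ) 128 96 (bitT m e.1)) =
      dotN 63 p p + dotN 63 e.2.1 e.2.1 := Nat.eq_of_beq_eq_true h
  have h2 := congrArg (Nat.cast : ℕ → ℝ) h1
  rw [dist_ptR]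
  cases hb : bitT m e.1
  · rw [hb] at h2
    push_cast at h2
    constructor
    · linarith
    · intro _; linarith
  · rw [hb] at h2
    push_cast at h2
    constructor
    · linarith
    · intro h3; exact absurd h3 (by simp)

theorem zOne_imp {t zm : ℕ} {e : ℕ × ℕ × ℕ} (h : zOne t zm e = true) :
    (dotN 63 t e.2.1 + 1012 = 4 * (sumN 63 t + sumN 63 e.2.1) +
        (Bool.rec (motive := fun _ => ℕ) 0 16 (bitT zm e.1))) ∧
      (dotN 63 e.2.1 e.2.1 + 948 = 8 * sumN 63 e.2.1) ∧ e.1 < 320 := by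
  unfold zOne at h
  rw [brec_true, brec_true, Nat.blt_eq] at h
  have h1 := Nat.eq_of_beq_eq_true h.1
  have h2 := Nat.eq_of_beq_eq_true h.2.1
  simp only [Nat.add_eq, Nat.mul_eq] at h1 h2
  exact ⟨h1, h2, h.2.2⟩

theorem z_arith (A B C s1 s2 c : ℕ) (h0 : A + 956 = 8 * s1) (h1 : B + 1012 = 4 * (s1 + s2) + c)
    (h2 : C + 948 = 8 * s2) :
    lam ^ 2 * ((A : ℝ) - 8 * (s1 : ℝ) + 1008) - 2 * lam * ((B : ℝ) - 4 * ((s1 : ℝ) + (s2 : ℝ)) + 1008)
      + ((C : ℝ) - 8 * (s2 : ℝ) + 1008) = 128 - 2 * lam * (c : ℝ) := by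
  have g0 := congrArg (Nat.cast : ℕ → ℝ) h0
  have g1 := congrArg (Nat.cast : ℕ → ℝ) h1
  have g2 := congrArg (Nat.cast : ℕ → ℝ) h2
  push_cast at g0 g1 g2
  have e0 : (A : ℝ) - 8 * (s1 : ℝ) + 1008 = 52 := by linarith
  have e1 : (B : ℝ) - 4 * ((s1 : ℝ) + (s2 : ℝ)) + 1008 = (c : ℝ) - 4 := by linarith
  have e2 : (C : ℝ) - 8 * (s2 : ℝ) + 1008 = 60 := by linarith
  rw [e0, e1, e2]
  have hl := lam_eq
  linear_combination 4 * hl

theorem zOne_dist {t zm : ℕ} (ht : dotN 63 t t + 956 = 8 * sumN 63 t) {e : ℕ × ℕ × ℕ}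
    (h : zOne t zm e = true) :
    dist (zR t) (ptR e.2.1) ^ 2 ≤ 128 ∧
      (bitT zm e.1 = false → dist (zR t) (ptR e.2.1) ^ 2 = 128) := by
  obtain ⟨h1, h2, -⟩ := zOne_imp h
  rw [dist_zR, z_arith _ _ _ _ _ _ ht h1 h2]
  have hp := lam_pos
  cases hb : bitT zm e.1
  · simp
  · constructor
    · have : (0 : ℝ) ≤ 2 * lam * ((16 : ℕ) : ℝ) := by positivity
      linarith
    · intro h3; exact absurd h3 (by simp)

/-- The generic step: from the checks to the relation on the whole list. -/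
theorem rel_of_checks {t zm : ℕ} {L : List (ℕ × ℕ × ℕ)}
    (ht : dotN 63 t t + 956 = 8 * sumN 63 t) (hz : ∀ e ∈ L, zOne t zm e = true)
    (hg : L.Pairwise fun a b => geoOne a.2.1 a.2.2 b = true) :
    ((320, t, zm) :: L).Pairwise Rel := by
  have toE_of_mem : ∀ e ∈ L, toE e = ptR e.2.1 := by
    intro e he
    have h := (zOne_imp (hz e he)).2.2
    unfold toE
    rw [if_neg (by omega)]
  refine List.pairwise_cons.2 ⟨fun b hb => ?_, ?_⟩
  · have h := zOne_dist ht (hz b hb)
    have hz : toE (320, t, zm) = zR t := by simp [toE]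
    unfold Rel
    rw [hz, toE_of_mem b hb]
    exact h
  · refine hg.imp_of_mem fun {a b} ha hb h => ?_
    unfold Rel
    rw [toE_of_mem a ha, toE_of_mem b hb]
    exact geoOne_dist h

theorem uverts_geo : uverts.Pairwise fun a b => geoOne a.2.1 a.2.2 b = true := by
  have hR : ∀ a b : ℕ × ℕ × ℕ, geoOne a.2.1 a.2.2 b = true →
      (fun a b : ℕ × ℕ × ℕ => geoOne a.2.1 a.2.2 b = true) a b := fun _ _ h => h
  have h10 : (uverts.drop 320).Pairwise fun a b => geoOne a.2.1 a.2.2 b = true := by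
    rw [uverts_drop]; exact List.Pairwise.nil
  have h9 : (uverts.drop 288).Pairwise fun a b => geoOne a.2.1 a.2.2 b = true :=
    geoTake_pairwise hR 32 _ geo_9 (by rw [List.drop_drop]; exact h10)
  have h8 : (uverts.drop 256).Pairwise fun a b => geoOne a.2.1 a.2.2 b = true :=
    geoTake_pairwise hR 32 _ geo_8 (by rw [List.drop_drop]; exact h9)
  have h7 : (uverts.drop 224).Pairwise fun a b => geoOne a.2.1 a.2.2 b = true :=
    geoTake_pairwise hR 32 _ geo_7 (by rw [List.drop_drop]; exact h8)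
  have h6 : (uverts.drop 192).Pairwise fun a b => geoOne a.2.1 a.2.2 b = true :=
    geoTake_pairwise hR 32 _ geo_6 (by rw [List.drop_drop]; exact h7)
  have h5 : (uverts.drop 160).Pairwise fun a b => geoOne a.2.1 a.2.2 b = true :=
    geoTake_pairwise hR 32 _ geo_5 (by rw [List.drop_drop]; exact h6)
  have h4 : (uverts.drop 128).Pairwise fun a b => geoOne a.2.1 a.2.2 b = true :=
    geoTake_pairwise hR 32 _ geo_4 (by rw [List.drop_drop]; exact h5)
  have h3 : (uverts.drop 96).Pairwise fun a b => geoOne a.2.1 a.2.2 b = true :=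
    geoTake_pairwise hR 32 _ geo_3 (by rw [List.drop_drop]; exact h4)
  have h2 : (uverts.drop 64).Pairwise fun a b => geoOne a.2.1 a.2.2 b = true :=
    geoTake_pairwise hR 32 _ geo_2 (by rw [List.drop_drop]; exact h3)
  have h1 : (uverts.drop 32).Pairwise fun a b => geoOne a.2.1 a.2.2 b = true :=
    geoTake_pairwise hR 32 _ geo_1 (by rw [List.drop_drop]; exact h2)
  have h0 : (uverts.drop 0).Pairwise fun a b => geoOne a.2.1 a.2.2 b = true :=
    geoTake_pairwise hR 32 _ geo_0 (by rw [List.drop_drop]; exact h1)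
  rw [List.drop_zero] at h0
  exact h0

theorem verts_rel : verts.Pairwise Rel :=
  rel_of_checks tP_norm (zRow_sound tP zMask uverts zRow_uverts) uverts_geo

theorem noCl_verts : noCl 6 verts = true := by
  have h17 : cstep (noCl 5) (verts.drop 321) = true := by
    rw [verts_drop]; rfl
  have h16 : cstep (noCl 5) (verts.drop 165) = true :=
    cTake_cstep _ 156 _ clq_16 (by rw [List.drop_drop]; exact h17)
  have h15 : cstep (noCl 5) (verts.drop 132) = true :=
    cTake_cstep _ 33 _ clq_15 (by rw [List.drop_drop]; exact h16)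
  have h14 : cstep (noCl 5) (verts.drop 113) = true :=
    cTake_cstep _ 19 _ clq_14 (by rw [List.drop_drop]; exact h15)
  have h13 : cstep (noCl 5) (verts.drop 96) = true :=
    cTake_cstep _ 17 _ clq_13 (by rw [List.drop_drop]; exact h14)
  have h12 : cstep (noCl 5) (verts.drop 82) = true :=
    cTake_cstep _ 14 _ clq_12 (by rw [List.drop_drop]; exact h13)
  have h11 : cstep (noCl 5) (verts.drop 71) = true :=
    cTake_cstep _ 11 _ clq_11 (by rw [List.drop_drop]; exact h12)
  have h10 : cstep (noCl 5) (verts.drop 61) = true :=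
    cTake_cstep _ 10 _ clq_10 (by rw [List.drop_drop]; exact h11)
  have h9 : cstep (noCl 5) (verts.drop 53) = true :=
    cTake_cstep _ 8 _ clq_9 (by rw [List.drop_drop]; exact h10)
  have h8 : cstep (noCl 5) (verts.drop 45) = true :=
    cTake_cstep _ 8 _ clq_8 (by rw [List.drop_drop]; exact h9)
  have h7 : cstep (noCl 5) (verts.drop 38) = true :=
    cTake_cstep _ 7 _ clq_7 (by rw [List.drop_drop]; exact h8)
  have h6 : cstep (noCl 5) (verts.drop 31) = true :=
    cTake_cstep _ 7 _ clq_6 (by rw [List.drop_drop]; exact h7)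
  have h5 : cstep (noCl 5) (verts.drop 25) = true :=
    cTake_cstep _ 6 _ clq_5 (by rw [List.drop_drop]; exact h6)
  have h4 : cstep (noCl 5) (verts.drop 20) = true :=
    cTake_cstep _ 5 _ clq_4 (by rw [List.drop_drop]; exact h5)
  have h3 : cstep (noCl 5) (verts.drop 15) = true :=
    cTake_cstep _ 5 _ clq_3 (by rw [List.drop_drop]; exact h4)
  have h2 : cstep (noCl 5) (verts.drop 9) = true :=
    cTake_cstep _ 6 _ clq_2 (by rw [List.drop_drop]; exact h3)
  have h1 : cstep (noCl 5) (verts.drop 4) = true :=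
    cTake_cstep _ 5 _ clq_1 (by rw [List.drop_drop]; exact h2)
  have h0 : cstep (noCl 5) (verts.drop 0) = true :=
    cTake_cstep _ 4 _ clq_0 (by rw [List.drop_drop]; exact h1)
  rw [List.drop_zero] at h0
  exact h0

/-- Generic combinatorial core: among any six entries two are at squared distance 128. -/
theorem exists_far {L : List (ℕ × ℕ × ℕ)} (hrel : L.Pairwise Rel) (hcl : noCl 6 L = true)
    (s : Finset (Fin L.length)) (hs : 6 ≤ s.card) :
    ∃ i ∈ s, ∃ j ∈ s, dist (toE (L.get i)) (toE (L.get j)) ^ 2 = 128 := by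
  by_contra hcon
  simp only [not_exists, not_and] at hcon
  have hpw : (List.ofFn fun a : Fin s.card => L.get (s.orderEmbOfFin rfl a)).Pairwise
      (fun a b => bitT a.2.2 b.1 = true) := by
    rw [List.pairwise_ofFn]
    intro i j hij
    have hlt : s.orderEmbOfFin rfl i < s.orderEmbOfFin rfl j := (s.orderEmbOfFin rfl).strictMono hij
    have hr := List.pairwise_iff_get.1 hrel _ _ hlt
    by_contra hb
    rw [Bool.not_eq_true] at hb
    exact hcon _ (Finset.orderEmbOfFin_mem s rfl i) _ (Finset.orderEmbOfFin_mem s rfl j) (hr.2 hb)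
  have hsub : (List.ofFn fun a : Fin s.card => L.get (s.orderEmbOfFin rfl a)).Sublist L := by
    rw [List.sublist_iff_exists_fin_orderEmbedding_get_eq]
    refine ⟨(Fin.castOrderIso (List.length_ofFn)).toOrderEmbedding.trans (s.orderEmbOfFin rfl),
      fun ix => ?_⟩
    simp
    rfl
  have h := noCl_sound 6 L hcl _ hsub hpw
  rw [List.length_ofFn] at h
  omega

theorem rel_le {L : List (ℕ × ℕ × ℕ)} (hrel : L.Pairwise Rel) (i j : Fin L.length) :
    dist (toE (L.get i)) (toE (L.get j)) ^ 2 ≤ 128 := by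
  rcases lt_trichotomy i j with h | h | h
  · exact (List.pairwise_iff_get.1 hrel _ _ h).1
  · rw [h]; simp
  · rw [dist_comm]; exact (List.pairwise_iff_get.1 hrel _ _ h).1

/-- Borsuk's conjecture fails in dimension 63: a finite set of positive diameter in `ℝ^63` such
that, however it is written as a union of 64 sets, one of them has the full diameter. -/
theorem borsuk_fails_63 : ∃ S : Set (EuclideanSpace ℝ (Fin 63)), S.Finite ∧ 0 < Metric.diam S ∧
    ∀ P : Fin 64 → Set (EuclideanSpace ℝ (Fin 63)), (⋃ i, P i) = S →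
      ∃ i, Metric.diam S ≤ Metric.diam (P i) := by
  have hlen := verts_length
  have hrel := verts_rel
  have hcl := noCl_verts
  generalize verts = L at hlen hrel hcl
  set f : Fin L.length → EuclideanSpace ℝ (Fin 63) := fun i => toE (L.get i) with hf
  have hfin : (Set.range f).Finite := Set.finite_range f
  have hup : Metric.diam (Set.range f) ≤ Real.sqrt 128 := by
    refine Metric.diam_le_of_forall_dist_le (Real.sqrt_nonneg _) ?_
    rintro _ ⟨i, rfl⟩ _ ⟨j, rfl⟩
    exact Real.le_sqrt_of_sq_le (rel_le hrel i j)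
  have hlow : ∀ (Q : Set (EuclideanSpace ℝ (Fin 63))), Q ⊆ Set.range f →
      ∀ s : Finset (Fin L.length), 6 ≤ s.card → (∀ i ∈ s, f i ∈ Q) →
        Real.sqrt 128 ≤ Metric.diam Q := by
    intro Q hQ s hs hsQ
    obtain ⟨i, hi, j, hj, hd⟩ := exists_far hrel hcl s hs
    have hb : Bornology.IsBounded Q := (hfin.subset hQ).isBounded
    have h1 := Metric.dist_le_diam_of_mem hb (hsQ i hi) (hsQ j hj)
    have h2 : Real.sqrt 128 = dist (f i) (f j) := by
      rw [← hd, Real.sqrt_sq dist_nonneg]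
    rw [h2]; exact h1
  refine ⟨Set.range f, hfin, ?_, ?_⟩
  · have h := hlow (Set.range f) subset_rfl Finset.univ (by simp [hlen]) fun i _ => ⟨i, rfl⟩
    have h128 : 0 < Real.sqrt 128 := Real.sqrt_pos.2 (by norm_num)
    linarith
  · intro P hP
    have hmem : ∀ i, ∃ c, f i ∈ P c := by
      intro i
      have : f i ∈ ⋃ c, P c := by rw [hP]; exact ⟨i, rfl⟩
      exact Set.mem_iUnion.1 this
    choose c hc using hmem
    obtain ⟨y, hy⟩ := Fintype.exists_lt_card_fiber_of_mul_lt_card (n := 5) c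
      (by simp [hlen])
    refine ⟨y, hup.trans (hlow (P y) ?_ _ hy ?_)⟩
    · rw [← hP]; exact Set.subset_iUnion P y
    · intro i hi
      rw [Finset.mem_filter] at hi
      rw [← hi.2]; exact hc i

end Vale.Agent.Lib.P052.Dim63
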