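import Vale.Agent.Lib.P052.Dim63Defs

/-!
Soundness of the Boolean checkers of `Dim63Defs`.
-/

namespace Vale.Agent.Lib.P052.Dim63

theorem brec_true {a b : Bool} :
    (Bool.rec (motive := fun _ => Bool) false a b) = true ↔ b = true ∧ a = true := by
  cases b <;> simp

theorem geoRow_cons (p m : ℕ) (e : ℕ × ℕ × ℕ) (T : List (ℕ × ℕ × ℕ)) :
    geoRow p m (e :: T) = true ↔ geoOne p m e = true ∧ geoRow p m T = true :=
  brec_true

theorem geoRow_sound (p m : ℕ) : ∀ L : List (ℕ × ℕ × ℕ), geoRow p m L = true →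
    ∀ e ∈ L, geoOne p m e = true
  | [], _, e, he => by simp at he
  | a :: T, h, e, he => by
    rw [geoRow_cons] at h
    rcases List.mem_cons.1 he with rfl | he
    · exact h.1
    · exact geoRow_sound p m T h.2 e he

theorem geoTake_succ_cons (k : ℕ) (e : ℕ × ℕ × ℕ) (T : List (ℕ × ℕ × ℕ)) :
    geoTake (k + 1) (e :: T) = true ↔ geoRow e.2.1 e.2.2 T = true ∧ geoTake k T = true :=
  brec_true

theorem geoTake_pairwise {R : ℕ × ℕ × ℕ → ℕ × ℕ × ℕ → Prop}
    (hR : ∀ a b, geoOne a.2.1 a.2.2 b = true → R a b) :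
    ∀ (k : ℕ) (L : List (ℕ × ℕ × ℕ)), geoTake k L = true → (L.drop k).Pairwise R → L.Pairwise R
  | 0, L, _, h => by simpa using h
  | k + 1, [], _, _ => List.Pairwise.nil
  | k + 1, e :: T, h, h2 => by
    rw [geoTake_succ_cons] at h
    rw [List.drop_succ_cons] at h2
    refine List.pairwise_cons.2 ⟨fun b hb => hR e b (geoRow_sound _ _ T h.1 b hb), ?_⟩
    exact geoTake_pairwise hR k T h.2 h2

theorem zRow_cons (t zm : ℕ) (e : ℕ × ℕ × ℕ) (T : List (ℕ × ℕ × ℕ)) :
    zRow t zm (e :: T) = true ↔ zOne t zm e = true ∧ zRow t zm T = true :=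
  brec_true

theorem zRow_sound (t zm : ℕ) : ∀ L : List (ℕ × ℕ × ℕ), zRow t zm L = true →
    ∀ e ∈ L, zOne t zm e = true
  | [], _, e, he => by simp at he
  | a :: T, h, e, he => by
    rw [zRow_cons] at h
    rcases List.mem_cons.1 he with rfl | he
    · exact h.1
    · exact zRow_sound t zm T h.2 e he

theorem filt_eq (m : ℕ) : ∀ L : List (ℕ × ℕ × ℕ), filt m L = L.filter fun u => bitT m u.1
  | [] => rfl
  | u :: T => by
    have h : filt m (u :: T) =
        Bool.rec (motive := fun _ => List (ℕ × ℕ × ℕ)) (filt m T) (u :: filt m T) (bitT m u.1) := rfl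
    rw [h, filt_eq m T]
    cases hb : bitT m u.1 <;> simp [List.filter_cons, hb]

theorem cstep_cons (f : List (ℕ × ℕ × ℕ) → Bool) (e : ℕ × ℕ × ℕ) (T : List (ℕ × ℕ × ℕ)) :
    cstep f (e :: T) = true ↔ f (filt e.2.2 T) = true ∧ cstep f T = true :=
  brec_true

theorem cTake_succ_cons (f : List (ℕ × ℕ × ℕ) → Bool) (k : ℕ) (e : ℕ × ℕ × ℕ)
    (T : List (ℕ × ℕ × ℕ)) :
    cTake f (k + 1) (e :: T) = true ↔ f (filt e.2.2 T) = true ∧ cTake f k T = true :=
  brec_true

theorem cTake_cstep (f : List (ℕ × ℕ × ℕ) → Bool) :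
    ∀ (k : ℕ) (L : List (ℕ × ℕ × ℕ)), cTake f k L = true → cstep f (L.drop k) = true →
      cstep f L = true
  | 0, L, _, h => by simpa using h
  | k + 1, [], _, _ => rfl
  | k + 1, e :: T, h, h2 => by
    rw [cTake_succ_cons] at h
    rw [List.drop_succ_cons] at h2
    exact (cstep_cons f e T).2 ⟨h.1, cTake_cstep f k T h.2 h2⟩

theorem cstep_sound (f : List (ℕ × ℕ × ℕ) → Bool) (k : ℕ)
    (hf : ∀ L, f L = true → ∀ l : List (ℕ × ℕ × ℕ), l.Sublist L →
      l.Pairwise (fun a b => bitT a.2.2 b.1 = true) → l.length < k) :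
    ∀ L, cstep f L = true → ∀ l : List (ℕ × ℕ × ℕ), l.Sublist L →
      l.Pairwise (fun a b => bitT a.2.2 b.1 = true) → l.length < k + 1
  | [], _, l, hl, _ => by
    rw [List.sublist_nil.1 hl]; simp
  | e :: T, h, l, hl, hp => by
    rw [cstep_cons] at h
    rcases List.sublist_cons_iff.1 hl with hl | ⟨r, rfl, hr⟩
    · exact cstep_sound f k hf T h.2 l hl hp
    · rw [List.pairwise_cons] at hp
      have h1 : r.Sublist (filt e.2.2 T) := by
        rw [filt_eq]
        have h2 : r.filter (fun u => bitT e.2.2 u.1) = r :=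
          List.filter_eq_self.2 fun b hb => hp.1 b hb
        rw [← h2]
        exact hr.filter _
      have := hf _ h.1 r h1 hp.2
      simp only [List.length_cons]
      omega

theorem noCl_sound : ∀ (k : ℕ) (L : List (ℕ × ℕ × ℕ)), noCl k L = true → ∀ l : List (ℕ × ℕ × ℕ), l.Sublist L →
    l.Pairwise (fun a b => bitT a.2.2 b.1 = true) → l.length < k
  | 0, L, h, _, _, _ => by
    have : noCl 0 L = false := rfl
    rw [this] at h
    exact absurd h (by simp)
  | k + 1, L, h, l, hl, hp => cstep_sound (noCl k) k (noCl_sound k) L h l hl hp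

/-- Digit `k` of `p` in base 16. -/
def dg (p k : ℕ) : ℕ := p / 16 ^ k % 16

theorem dg_zero (p : ℕ) : dg p 0 = p % 16 := by simp [dg]

theorem dg_div (p k : ℕ) : dg (p / 16) k = dg p (k + 1) := by
  simp only [dg, Nat.div_div_eq_div_mul, pow_succ']

theorem dotN_eq : ∀ n p q : ℕ, dotN n p q = ∑ k ∈ Finset.range n, dg p k * dg q k
  | 0, _, _ => rfl
  | n + 1, p, q => by
    have h : dotN (n + 1) p q = p % 16 * (q % 16) + dotN n (p / 16) (q / 16) := rfl
    rw [h, dotN_eq n, Finset.sum_range_succ', dg_zero, dg_zero, add_comm]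
    simp only [dg_div]

theorem sumN_eq : ∀ n p : ℕ, sumN n p = ∑ k ∈ Finset.range n, dg p k
  | 0, _ => rfl
  | n + 1, p => by
    have h : sumN (n + 1) p = p % 16 + sumN n (p / 16) := rfl
    rw [h, sumN_eq n, Finset.sum_range_succ', dg_zero, add_comm]
    simp only [dg_div]

end Vale.Agent.Lib.P052.Dim63
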